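import Mathlib
import Vale.Agent.P118.OF.Defs

/-!
# P065, upper bound: the GRID interface and the exact statements of the algebraic end (helper352)

`Grid` is what the k-edge side has to produce (one resolution `d`, loss `K`, order `lam`);
`StGridKill` says that it is contradictory.  Everything about k-edges is in the field `star`
(mass form: `P0` = chart image of the points of `Q`, `m` = number of points of a cell).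
-/

set_option autoImplicit false

namespace Vale.Agent.P065.UB.H352

open Finset
open Vale.Agent.P118.OF (Cov Sep)

open Classical in
/-- packing number: the largest cardinality of a `t`-separated subset of `S` -/
noncomputable def pk (S : Finset ℝ) (t : ℝ) : ℕ :=
  (S.powerset.filter (fun P => Sep t P)).sup card

open Classical in
/-- **GRID** -/
structure Grid (c0 : ℕ) (K lam d m : ℝ) (Y P0 : Finset (ℝ × ℝ)) (A : Finset ℝ)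
    (S : ℝ → Finset ℝ) (C : ℝ → ℝ → Finset (ℝ × ℝ)) : Prop where
  hK : 2 ≤ K
  hlam : 1 ≤ lam
  hd : 0 < d
  hd1 : d ≤ 1
  hm : 0 < m
  /-- the only dimension / non-concentration condition: a box of side `r` is light, or
  `d / r ≤ lam ^ (-3/2)` (which is automatic for `r ≥ lam ^ (-1/2)` if `d ≤ lam ^ (-2)`) -/
  dim : ∀ x y r : ℝ, d ≤ r → r ≤ 1 → lam ^ 3 * d ^ 2 ≤ K ^ c0 * r ^ 2 ∨
    K ^ c0 * (#{p ∈ Y | |p.1 - x| ≤ r ∧ |p.2 - y| ≤ r} : ℝ) ≤ lam ^ 2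
  box : ∀ p ∈ Y, |p.1| ≤ 1 ∧ |p.2| ≤ 1
  sep1 : Sep d (Y.image Prod.fst)
  sep2 : Sep d (Y.image Prod.snd)
  card1 : (#(Y.image Prod.fst) : ℝ) ≤ K * lam
  card2 : (#(Y.image Prod.snd) : ℝ) ≤ K * lam
  absA : ∀ a ∈ A, 1 ≤ K * |a| ∧ |a| ≤ K
  cardA : lam ≤ K * #A
  cardS : ∀ a ∈ A, (#(S a) : ℝ) ≤ K * lam
  sub : ∀ a ∈ A, ∀ s ∈ S a, C a s ⊆ Y
  near : ∀ a ∈ A, ∀ s ∈ S a, ∀ p ∈ C a s, |p.1 + a * p.2 - s| ≤ K * d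
  full : ∀ a ∈ A, lam ^ 2 ≤ K * #((S a).biUnion (C a))
  cardP : (#P0 : ℝ) ≤ K * lam ^ 2 * m
  star : ∀ al ∈ A, ∀ s0 h0 t r : ℝ, d ≤ t → t ≤ r → r ≤ 1 →
    ∑ a ∈ A, ∑ s ∈ S a,
        (m * #{p ∈ C a s | |p.1 + al * p.2 - s0| ≤ t ∧ |p.2 - h0| ≤ r}) ^ 3
      ≤ K * lam * m *
        (#{p ∈ P0 | |p.1 + al * p.2 - s0| ≤ K * t ∧ |p.2 - h0| ≤ K * r} : ℝ) ^ 2

/-- **the algebraic end** -/
def StGridKill : Prop :=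
  ∃ c0 c1 : ℕ, ∀ (K lam d m : ℝ) (Y P0 : Finset (ℝ × ℝ)) (A : Finset ℝ)
    (S : ℝ → Finset ℝ) (C : ℝ → ℝ → Finset (ℝ × ℝ)),
    Grid c0 K lam d m Y P0 A S C → K ^ c1 ≤ lam → False

/-! ### intermediate data, after BSG -/

open Classical in
/-- **MID**: the sets `B`, `X` (columns, rows) and the multipliers `A` after BSG + one pair.
The strips of one class are disjoint. All losses are `K`. -/
structure Mid (K lam d m : ℝ) (P0 : Finset (ℝ × ℝ)) (B X A : Finset ℝ)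
    (S : ℝ → Finset ℝ) (C : ℝ → ℝ → Finset (ℝ × ℝ)) : Prop where
  hK : 4096 ≤ K
  hlam : 1 ≤ lam
  hd : 0 < d
  hd1 : d ≤ 1
  hm : 0 < m
  absB : ∀ x ∈ B, |x| ≤ 1
  absX : ∀ x ∈ X, |x| ≤ 1
  sepB : Sep d B
  sepX : Sep d X
  cardB : (#B : ℝ) ≤ K * lam
  cardX : (#X : ℝ) ≤ K * lam
  cardX' : lam ≤ K * #X
  neA : A.Nonempty
  absA : ∀ a ∈ A, 1 ≤ K * |a| ∧ |a| ≤ K
  cardA : lam ≤ K * #A
  cardS : ∀ a ∈ A, (#(S a) : ℝ) ≤ K * lam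
  sub : ∀ a ∈ A, ∀ s ∈ S a, C a s ⊆ B ×ˢ X
  disj : ∀ a ∈ A, ∀ s ∈ S a, ∀ s' ∈ S a, s ≠ s' → Disjoint (C a s) (C a s')
  near : ∀ a ∈ A, ∀ s ∈ S a, ∀ p ∈ C a s, |p.1 + a * p.2 - s| ≤ K * d
  full : ∀ a ∈ A, lam ^ 2 ≤ K * ∑ s ∈ S a, (#(C a s) : ℝ)
  cardP : (#P0 : ℝ) ≤ K * lam ^ 2 * m
  star : ∀ al ∈ A, ∀ s0 h0 t r : ℝ, d ≤ t → t ≤ r → r ≤ 1 →
    ∑ a ∈ A, ∑ s ∈ S a,
        (m * #{p ∈ C a s | |p.1 + al * p.2 - s0| ≤ t ∧ |p.2 - h0| ≤ r}) ^ 3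
      ≤ K * lam * m *
        (#{p ∈ P0 | |p.1 + al * p.2 - s0| ≤ K * t ∧ |p.2 - h0| ≤ K * r} : ℝ) ^ 2
  frX : ∀ x t : ℝ, d ≤ t → (#{y ∈ X | |y - x| ≤ t} : ℝ) * pk X t ≤ K * lam
  frB : ∀ x t : ℝ, d ≤ t → (#{y ∈ B | |y - x| ≤ t} : ℝ) * pk X t ≤ K * lam
  pkB : ∀ t : ℝ, d ≤ t → (pk B t : ℝ) ≤ K * pk X t
  cov : ∀ a ∈ A, ∀ b ∈ A, Cov d (K * lam) {z : ℝ | ∃ x ∈ X, ∃ y ∈ X, z = a * x - b * y}

open Classical in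
/-- **[T]** the only consequence of `star` (segment inequality): at most
`K ^ c lam N(r) / N(t)` multipliers in an interval of radius `t / r` -/
def StT : Prop :=
  ∃ c : ℕ, ∀ (K lam d m : ℝ) (P0 : Finset (ℝ × ℝ)) (B X A : Finset ℝ)
    (S : ℝ → Finset ℝ) (C : ℝ → ℝ → Finset (ℝ × ℝ)), Mid K lam d m P0 B X A S C →
    ∀ α t r : ℝ, d ≤ t → t ≤ r → r ≤ 1 →
      (#{a ∈ A | |a - α| ≤ t / r} : ℝ) * pk X t ≤ K ^ c * lam * pk X r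

open Classical in
/-- **[FRA]** Frostman condition of `A` with respect to the profile of `X` in a box of side `r1`;
`r2` is a scale such that pairs at distance `≤ r2` are rare, `M` bounds the multiplicity -/
def StFrA : Prop :=
  ∃ c : ℕ, ∀ (K lam d m : ℝ) (P0 : Finset (ℝ × ℝ)) (B X A : Finset ℝ)
    (S : ℝ → Finset ℝ) (C : ℝ → ℝ → Finset (ℝ × ℝ)), Mid K lam d m P0 B X A S C →
    ∀ r1 r2 M : ℝ, d ≤ r2 → r2 ≤ r1 → r1 ≤ 1 → K ^ c * (pk X r1 : ℝ) ≤ pk X r2 →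
    (∀ α : ℝ, (#{a ∈ A | |a - α| ≤ d / r2} : ℝ) ≤ M) →
    ∀ α t : ℝ, d ≤ t * r1 → t ≤ 1 →
      (#{a ∈ A | |a - α| ≤ t} : ℝ) * pk X (t * r1) ≤ K ^ c * M * lam

/-- **[C3]** upper bound for the covering numbers of `A` -/
def StC3 : Prop :=
  ∃ c : ℕ, ∀ (K lam d m : ℝ) (P0 : Finset (ℝ × ℝ)) (B X A : Finset ℝ)
    (S : ℝ → Finset ℝ) (C : ℝ → ℝ → Finset (ℝ × ℝ)), Mid K lam d m P0 B X A S C →
    ∀ r1 : ℝ, d ≤ r1 → r1 ≤ 1 → K ^ c ≤ (pk X r1 : ℝ) →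
    ∀ s : ℝ, d ≤ s * r1 → s ≤ 1 → (pk A s : ℝ) ≤ K ^ c * pk X (s * r1)

/-- **[AC1P]** `ac1` with the column set `B'` and with dense `G a` in `B' × X` -/
def StAc1P : Prop :=
  ∃ C : ℕ, ∀ (K n δ : ℝ) (A B H : Finset ℝ) (G : ℝ → Finset (ℝ × ℝ)),
    3072 ≤ K → 0 < δ → 0 < n → A.Nonempty → (∀ a ∈ A, 1 ≤ K * |a| ∧ |a| ≤ K) →
    Sep δ B → Sep δ H → (#B : ℝ) ≤ K * n → (#H : ℝ) ≤ K * n →
    (∀ a ∈ A, (∀ p ∈ G a, p.1 ∈ B ∧ p.2 ∈ H) ∧ n ^ 2 ≤ K * #(G a) ∧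
      Cov δ (K * n) {z : ℝ | ∃ p ∈ G a, z = p.1 + a * p.2}) →
    ∃ A' ⊆ A, ∃ B' ⊆ B, ∃ X ⊆ H, (#A : ℝ) ≤ K ^ C * #A' ∧ n ≤ K ^ C * #X ∧
      (∀ a ∈ A', n ^ 2 ≤ K ^ C * #(G a ∩ (B' ×ˢ X))) ∧
      (∀ a ∈ A', Cov δ (K ^ C * n) {z : ℝ | ∃ x ∈ B', ∃ y ∈ X, z = x + a * y}) ∧
      ∀ a ∈ A', ∀ b ∈ A', Cov δ (K ^ C * n) {z : ℝ | ∃ x ∈ X, ∃ y ∈ X, z = a * x - b * y}

/-- **[MID]** -/
def StMid : Prop :=
  ∃ C : ℕ, ∀ (c0 : ℕ) (K lam d m : ℝ) (Y P0 : Finset (ℝ × ℝ)) (A : Finset ℝ)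
    (S : ℝ → Finset ℝ) (C' : ℝ → ℝ → Finset (ℝ × ℝ)),
    Grid c0 K lam d m Y P0 A S C' →
    ∃ (B X A' : Finset ℝ) (C'' : ℝ → ℝ → Finset (ℝ × ℝ)), B ⊆ Y.image Prod.fst ∧
      A' ⊆ A ∧ (∀ a ∈ A', ∀ s ∈ S a, C'' a s ⊆ C' a s) ∧ Mid (K ^ C) lam d m P0 B X A' S C''

end Vale.Agent.P065.UB.H352
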